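import Vale.Agent.P166.Main

namespace Vale.Agent.Results.P166.Parisi

open Vale.Agent.P166 MeasureTheory Filter Topology

theorem result (β : ℝ) (hβ : 0 < β) (μ : Measure ℝ) [IsProbabilityMeasure μ]
    (hμ : IsCompact μ.support) (lam : ∀ N : ℕ, Fin N → ℝ)
    (hw : ∀ f : BoundedContinuousFunction ℝ ℝ,
      Tendsto (fun N : ℕ => (∑ i, f (lam N i)) / (N : ℝ)) atTop (𝓝 (∫ y, f y ∂μ)))
    (hmin : Tendsto (fun N => ⨅ i, lam N i) atTop (𝓝 (sInf μ.support)))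
    (hmax : Tendsto (fun N => ⨆ i, lam N i) atTop (𝓝 (sSup μ.support)))
    [∀ N : ℕ, MeasurableSpace (Matrix.orthogonalGroup (Fin N) ℝ)]
    [∀ N : ℕ, BorelSpace (Matrix.orthogonalGroup (Fin N) ℝ)]
    (ν : ∀ N : ℕ, Measure (Matrix.orthogonalGroup (Fin N) ℝ))
    [∀ N, IsProbabilityMeasure (ν N)] [∀ N, (ν N).IsHaarMeasure] :
    ∃ (V : ℕ → ℝ) (L : ℝ), (∀ n, IsGLB (trial (Rtr μ) β n) (V n)) ∧ Tendsto V atTop (𝓝 L) ∧
      Tendsto (fun N => ∫ U, |press β (lam N) U - L| ∂(ν N)) atTop (𝓝 0) :=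
  main hβ μ hμ lam hw hmin hmax ν

end Vale.Agent.Results.P166.Parisi
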